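import Vale.Agent.P181.NR.DefsP
import Vale.Agent.P181.DX.H556.SecA

set_option autoImplicit false

/-!
# P181, NR (P4): few rows near the diagonal, from the numbers, `UniAll` and `PolyS`
-/

namespace Vale.Agent.P181.NR.H924

open Vale.Agent.P181.H280 (plethMult)
open Vale.Agent.P181.PL (dn PolyS)

/-- The cells below row one are at most `k + 2` times the second row. -/
lemma dn_le_row {k : ℕ} (lam : Fin (k + 3) → ℕ) (h : Antitone lam) :
    dn lam 1 ≤ (k + 2) * lam 1 := by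
  have h1 := PL.dn_le h 1 (k + 2)
  rw [PL.dn_ge lam (by omega : k + 3 ≤ 1 + (k + 2))] at h1
  have h2 : T4.ex lam 1 = lam 1 := PL.exfin lam 1
  rw [h2] at h1
  omega

/-- **(P4)** few rows, near the diagonal. -/
theorem fewNear_of (hC : CoreP) (hU : DX.H556.UniAll) (hP : PolyS) : FewNear := by
  intro k
  obtain ⟨C1, c1, hC1, h1⟩ := hU
  obtain ⟨C2, c2, hC2, h2⟩ := hP
  obtain ⟨C, hC0, h⟩ := hC k (c1 + c2) (C1 * (k + 2) + C2) (by
    have : (0 : ℝ) ≤ k := Nat.cast_nonneg k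
    nlinarith)
  refine ⟨C, hC0, fun a b lam hl hs hCa hab hX => ?_⟩
  have hL0 : 0 ≤ Real.log a := Real.log_natCast_nonneg a
  obtain ⟨L, hL⟩ : ∃ L : ℝ, L = 1 + Real.log a := ⟨_, rfl⟩
  have hL1 : 1 ≤ L := by
    rw [hL]
    linarith
  have hk0 : (0 : ℝ) ≤ k := Nat.cast_nonneg k
  have ha0 : (0 : ℝ) ≤ a := Nat.cast_nonneg a
  have hLc1 : 1 ≤ L ^ c1 := one_le_pow₀ hL1
  have hLc2 : 1 ≤ L ^ c2 := one_le_pow₀ hL1
  rcases le_or_gt (C1 * L ^ c1 * (dn lam 1 : ℝ)) ((b : ℝ) ^ 2) with g1 | g1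
  · apply h1 a b hab
    rw [← hL]
    exact g1
  rcases le_or_gt (C2 * a * L ^ c2) (b : ℝ) with g2 | g2
  · apply h2 a b
    rw [← hL]
    exact g2
  apply h a b lam hl hs hCa hab _ _ hX
  · rw [← hL, pow_add]
    refine g2.le.trans ?_
    have e1 : L ^ c2 ≤ L ^ c1 * L ^ c2 := le_mul_of_one_le_left (by positivity) hLc1
    have e2 : (0 : ℝ) ≤ C1 * (k + 2) := by positivity
    calc C2 * a * L ^ c2 ≤ C2 * a * (L ^ c1 * L ^ c2) :=
          mul_le_mul_of_nonneg_left e1 (by positivity)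
      _ ≤ (C1 * (k + 2) + C2) * a * (L ^ c1 * L ^ c2) := by
          apply mul_le_mul_of_nonneg_right _ (by positivity)
          apply mul_le_mul_of_nonneg_right _ ha0
          linarith
  · rw [← hL, pow_add]
    have hab' : (a : ℝ) ≤ b := by exact_mod_cast hab
    have e0 : (dn lam 1 : ℝ) ≤ (k + 2) * (lam 1 : ℝ) := by exact_mod_cast dn_le_row lam hl
    have hlam : (0 : ℝ) ≤ (lam 1 : ℝ) := Nat.cast_nonneg _
    have e1 : L ^ c1 ≤ L ^ c1 * L ^ c2 := le_mul_of_one_le_right (by positivity) hLc2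
    calc (a : ℝ) ^ 2 ≤ (b : ℝ) ^ 2 := pow_le_pow_left₀ ha0 hab' 2
      _ ≤ C1 * L ^ c1 * (dn lam 1 : ℝ) := g1.le
      _ ≤ C1 * L ^ c1 * ((k + 2) * (lam 1 : ℝ)) :=
          mul_le_mul_of_nonneg_left e0 (by positivity)
      _ = C1 * (k + 2) * L ^ c1 * (lam 1 : ℝ) := by ring
      _ ≤ C1 * (k + 2) * (L ^ c1 * L ^ c2) * (lam 1 : ℝ) := by
          apply mul_le_mul_of_nonneg_right _ hlam
          exact mul_le_mul_of_nonneg_left e1 (by positivity)
      _ ≤ (C1 * (k + 2) + C2) * (L ^ c1 * L ^ c2) * (lam 1 : ℝ) := by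
          apply mul_le_mul_of_nonneg_right _ hlam
          apply mul_le_mul_of_nonneg_right _ (by positivity)
          linarith

end Vale.Agent.P181.NR.H924
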